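import Vale.Agent.P167.N.H199.DT.Main
import Vale.Agent.P167.N.QC.Fin
import Vale.Agent.P167.N.QN.Fin

/-!
# P167, `0 < q < 1`, route (C): the output of the driver tightness, without hypotheses
-/

set_option autoImplicit false

namespace Vale.Agent.P167.N.H199.DT

open Vale.Agent.P167

/-- **[DT]**: for `0 < q < 1` every subsequence of the interfaces of any approximation of any marked
Jordan domain has a further subsequence which converges in law to the image of the trace of a Loewner
chain with a random continuous driver. -/
theorem dt_lt {q : ℝ} (h0 : 0 < q) (h1 : q < 1) : Vale.Agent.P167.H259.C.DTOut q :=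
  dt_out (QC.kit_sqrt h0 h1) (QC.crossW_lt h0 h1) (QC.finW_lt h0 h1) (N.QN.nfW_lt h0 h1)

end Vale.Agent.P167.N.H199.DT
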