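import Vale.Agent.P167.N.Top.Of
import Vale.Agent.P167.N.BT.Fin
import Vale.Agent.P167.N.ST2.Bar
import Vale.Agent.P167.N.QC.CrossW
import Vale.Agent.P167.N.QC.FinW
import Vale.Agent.P167.N.QN.NfQ
import Vale.Agent.P167.N.Base.Kit0
import Vale.Agent.P167.H364.Fin

/-!
# P167, `0 < q < 1`: the question
-/

set_option autoImplicit false

namespace Vale.Agent.P167.N.Top

open Vale.Agent.P167
open Vale.Agent.P167.QE (wq muq I_crossW I_finW I_nfW)
open Vale.Agent.P167.QT (I_closeMOn)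
open Vale.Agent.P167.H375 (obsH hH)
open Vale.Agent.P167.N.BT (GeoT' RatT')

variable {q : ℝ}

theorem kit_lt (h0 : 0 < q) (h1 : q < 1) : Kit (√q) :=
  kit (Real.sqrt_pos.2 h0) (by rw [Real.sqrt_lt' one_pos, one_pow]; exact h1)

/-- The crossing numbers are tight. -/
theorem cross_lt (h0 : 0 < q) (h1 : q < 1) : I_crossW (wq q) :=
  QC.crossW (kit_lt h0 h1) (by linarith)

/-- The end of the interface. -/
theorem fin_lt (h0 : 0 < q) (h1 : q < 1) : I_finW (wq q) :=
  QC.finW (kit_lt h0 h1) (by linarith)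

/-- No fjords. -/
theorem nf_lt (h0 : 0 < q) (h1 : q < 1) : I_nfW (wq q) := N.QN.i_nfQ (kit_lt h0 h1)

/-- The geometric input. -/
theorem geo_lt (h0 : 0 < q) (h1 : q < 1) : GeoT' (muq q) H364.OkT (QE.Stair 3) := by
  have K := kit_lt h0 h1
  exact H364.geoT' (QE.muq_pos K.q_lt4) (QE.muq_lt h0) (by rw [K.muq_eq]; exact K)

/-- The ratios. -/
theorem rat_lt (h0 : 0 < q) (h1 : q < 1) : RatT' (muq q) H364.OkT := N.BT.ratT_lt (kit_lt h0 h1)

/-- The closeness of the observable. -/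
theorem close_lt (h0 : 0 < q) (h1 : q < 1) : I_closeMOn (QE.Stair 3) (wq q) (obsH (hH q)) :=
  close_of h0 (by linarith) (geo_lt h0 h1) (rat_lt h0 h1)

/-- **The question for `0 < q < 1`.** -/
theorem question_lt (h0 : 0 < q) (h1 : q < 1) : Final.Question q :=
  question_of (kit_lt h0 h1) (geo_lt h0 h1) (rat_lt h0 h1) (cross_lt h0 h1) (fin_lt h0 h1)
    (nf_lt h0 h1) (ST2.s_bar (kit_lt h0 h1).pos (Vale.Agent.P167.N.QC.ut (kit_lt h0 h1)))

end Vale.Agent.P167.N.Top
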