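import Vale.Agent.P167.N.Top.LitOf
import Vale.Agent.P167.N.Top.Final

/-!
# P167: the literal form of the question for all `0 < q < 4`
-/

set_option autoImplicit false

universe u

namespace Vale.Agent.P167.N.Top

open Vale.Agent.P167
open Vale.Agent.P167.H72.Lit (HasLim)

theorem hasLim_lt {q : ℝ} (h0 : 0 < q) (h1 : q < 1) : HasLim (Final.kappa q) :=
  hasLim_of h0 (by linarith) QG.Apx.ne_stair3 (close_lt h0 h1) (cross_lt h0 h1) (fin_lt h0 h1)
    (nf_lt h0 h1)

/-- **Q1 for all `0 < q < 4`, literal form.** -/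
theorem question_lit : ∀ q : ℝ, 0 < q → q < 4 → Vale.Agent.P167.H72.Lit.Question.{u} q := by
  intro q h0 h4
  rcases lt_or_ge q 1 with h1 | h1
  · exact lit_of h0 (hasLim_lt h0 h1) (question_lt h0 h1)
  · exact Vale.Agent.P167.H72.Lit.question q h1 h4

end Vale.Agent.P167.N.Top
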