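import Vale.Agent.P167.H72.Lit.Lim
import Vale.Agent.P167.H375.EndH

/-!
# P167, `0 < q < 4`: the literal form of the question from the curve theorem of the class `Stair 3`
-/

set_option autoImplicit false

open MeasureTheory ProbabilityTheory Set Filter Topology
open scoped NNReal ENNReal

universe u

namespace Vale.Agent.P167.N.Top

open Vale.Agent.P167.QE (Cls wq wq_pos kappa_pos' I_crossW I_finW I_nfW)
open Vale.Agent.P167.QT (I_closeMOn)
open Vale.Agent.P167.H375 (obsH hH expn_hH s_seqMOn)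
open Vale.Agent.P167.H72.Lit (HasLim hasLim_of_seqOn isSLE_iff of_body body_of)

/-- The limit law exists for `κ(q)`, from the closeness of the observable for one class. -/
theorem hasLim_of {q : ℝ} (h0 : 0 < q) (h4 : q < 4) {K : Cls} (hne : K.Ne)
    (hclose : I_closeMOn K (wq q) (obsH (hH q))) (hcross : I_crossW (wq q))
    (hfin : I_finW (wq q)) (hnf : I_nfW (wq q)) : HasLim (Final.kappa q) :=
  hasLim_of_seqOn (s_seqMOn (kappa_pos' h0.le) (wq_pos h0) Vale.Agent.P153.R2.R1.i_uinj
    H411.i_rado6 (expn_hH h0 h4) hclose hcross hfin hnf) hne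

/-- The literal form from the question in the form `Final.Question`. -/
theorem lit_of {q : ℝ} (h0 : 0 < q) (hlim : HasLim (Final.kappa q)) (hQ : Final.Question q) :
    Vale.Agent.P167.H72.Lit.Question.{u} q := by
  refine ⟨?_, ?_⟩
  · obtain ⟨Ω, mΩ, P, hP, γ, hγ, -⟩ := hQ
    exact ⟨Ω, mΩ, P, hP, γ, isSLE_iff.2 hγ⟩
  · intro Ω _ P _ γ hγ Φ
    exact of_body (body_of (kappa_pos' h0.le) hlim hQ (isSLE_iff.1 hγ)) Φ

end Vale.Agent.P167.N.Top
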