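import Vale.Agent.P167.N.BT.TopT
import Vale.Agent.P167.N.ST2.Top
import Vale.Agent.P167.N.ST2.Loc
import Vale.Agent.P167.N.ST2.LawY
import Vale.Agent.P167.N.H199.DT.Main
import Vale.Agent.P167.H264.Rot4
import Vale.Agent.P167.QG.Ne

/-!
# P167, `0 < q < 1`: the assembly

Stage I: the curve theorem for the class `Stair 3` from the geometric input `GeoT'` and the ratios
`RatT'`; rotation: the classes `Stair d`; Stage II: arbitrary approximations from the barrier `S_bar`.
-/

set_option autoImplicit false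

open MeasureTheory

namespace Vale.Agent.P167.N.Top

open Vale.Agent.P167
open Vale.Agent.P167.QE (wq muq I_crossW I_finW I_nfW Cls CurveLimitOn)
open Vale.Agent.P167.QT (I_closeMOn)
open Vale.Agent.P167.H375 (Sh obsH hH)
open Vale.Agent.P167.N.BT (GeoT' RatT')

/-- The closeness of the observable. -/
theorem close_of {K : Cls} {q : ℝ} (h0 : 0 < q) (h4 : q < 4) {ok : Sh → Prop}
    (hG : GeoT' (muq q) ok K) (hR : RatT' (muq q) ok) : I_closeMOn K (wq q) (obsH (hH q)) := by
  have h := N.BT.closeM_T (H375.cos_posT (QE.muq_pos h4) (QE.muq_lt h0)) hG hR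
  rw [H375.two_cos_muq h0 h4] at h
  exact h

/-- **The question for `0 < q < 1`** from the inputs. -/
theorem question_of {q : ℝ} (h : Kit (√q)) {ok : Sh → Prop}
    (hG : GeoT' (muq q) ok (QE.Stair 3)) (hR : RatT' (muq q) ok) (hcross : I_crossW (wq q))
    (hfin : I_finW (wq q)) (hnf : I_nfW (wq q)) (hbar : ST2.S_bar (√q)) : Final.Question q := by
  have h0 := h.q_pos
  have h1 : CurveLimitOn (QE.Stair 3) (Final.kappa q) (wq q) :=
    N.BT.curveLimitOn_T h0 h.q_lt4 QG.Apx.ne_stair3 hG hR hcross hfin hnf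
  exact ST2.question_loc h0 (H264.Rot.curveLimitOn_stairU h1)
    (ST2.s_loc_of h0 hbar (ST2.s_lawX h.pos h.le)) hfin (N.H199.DT.dt_out h hcross hfin hnf)

end Vale.Agent.P167.N.Top
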